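import Vale.Agent.P153.R2.SDB2.Main
import Vale.Agent.P153.R2.SDB.Tail

/-!
# P153-R2, block SDB2: the Schwinger-Dyson equations of the open laws, from the plane hypotheses
-/

namespace Vale.Agent.P153.R2.SDB2

open Set MeasureTheory
open Vale.Agent.P153 Vale.Agent.P153.R2 Vale.Agent.P153.F.X

theorem s_sdb_full {Q : Measure A.Om} {κ : ℝ} (hQ : A.IsQ Q) (hP : GFF.Plane (Q.map A.rc))
    (hS : GFF.SpecOut (Q.map A.rc) κ) (hC : GFF.RowCLT (Q.map A.rc) κ) (hκ : 0 < κ) :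
    SDAR.S_sdb (4 * κ / √3) (Q.map A.rc) := by
  have lvl := F.lvl_of hQ hP hS hC hκ
  exact s_sdb hQ hP hS hC hκ (SDB.s_tail hQ hP hS hC hκ lvl.mom
    (s_emom lvl.ext s_conf s_loc) lvl.rsw (s_int hP) lvl.pos)

end Vale.Agent.P153.R2.SDB2
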