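import Vale.Agent.P153.R2.SDB2.Loc
import Vale.Agent.P153.R2.SDB.Stmt
import Vale.Agent.P153.R2.GAPS.Gibbs

/-!
# P153-R2, block SDB2 (helper859): approximation of the open law by products over the arms
-/

namespace Vale.Agent.P153.R2.SDB2

open Set Relation MeasureTheory
open Vale.Agent.P153 Vale.Agent.P153.R2
open Vale.Agent.P153.Topo (Conn)
open Vale.Agent.P153.F (muT)
open Vale.Agent.P153.F.SD (PW lat)
open Vale.Agent.P153.F.Top (dp)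
open Vale.Agent.P153.SDAD (ker nbs Lc ArmT ApD ApP ApproxS)
open Vale.Agent.P153.R2.F2 (thk NoCr Cx OneS)
open Vale.Agent.P153.R2.F2A
open scoped Classical

/-- The hypotheses on the set and on the data. -/
structure Hyp (b : PW) (D : Set (ℝ × ℝ)) (M : ℕ) (ρ : ℝ) (Q : Fin 3 → ℝ × ℝ) (δ : ℝ)
    (S : Finset Pt) (η : Hg) : Prop where
  bd : SDAR.Bd M η
  arm : ∀ x ∈ S, Metric.closedBall (dp δ x) ρ ⊆ b.K1 ∨ Metric.closedBall (dp δ x) ρ ⊆ b.K2 ∨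
    Metric.closedBall (dp δ x) ρ ⊆ b.K3
  off : ∀ x ∈ S, Disjoint (Metric.closedBall (dp δ x) ρ) D
  ball : Metric.closedBall (Q 0) ρ ⊆ b.K1 ∧ Metric.closedBall (Q 1) ρ ⊆ b.K2 ∧
    Metric.closedBall (Q 2) ρ ⊆ b.K3
  full : ∀ i, ∀ x, dp δ x ∈ Metric.closedBall (Q i) ρ → x ∈ S

/-- The three arms. -/
def KK (b : PW) (i : Fin 3) : Set (ℝ × ℝ) := ![b.K1, b.K2, b.K3] i

/-- The part of `S` in the arm `i`. -/
def Sa (b : PW) (ρ δ : ℝ) (S : Finset Pt) (i : Fin 3) : Set Pt :=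
  {x | x ∈ S ∧ Metric.closedBall (dp δ x) ρ ⊆ KK b i}

variable {b : PW} {D : Set (ℝ × ℝ)} {M : ℕ} {ρ δ : ℝ} {Q : Fin 3 → ℝ × ℝ} {S : Finset Pt} {η : Hg}

theorem KK_disj (he : 0 < b.e) {i j : Fin 3} (hij : i ≠ j) {z : ℝ × ℝ} (hi : z ∈ KK b i)
    (hj : z ∈ KK b j) : False := by
  fin_cases i <;> fin_cases j
  · exact hij rfl
  · have h1 : z ∈ b.K1 := hi
    have h2 : z ∈ b.K2 := hj
    linarith [h1.1, h2.2.1]
  · have h1 : z ∈ b.K1 := hi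
    have h2 : z ∈ b.K3 := hj
    linarith [h1.1, h2.2.1]
  · have h1 : z ∈ b.K2 := hi
    have h2 : z ∈ b.K1 := hj
    linarith [h2.1, h1.2.1]
  · exact hij rfl
  · have h1 : z ∈ b.K2 := hi
    have h2 : z ∈ b.K3 := hj
    linarith [h1.1, h2.2.2.1]
  · have h1 : z ∈ b.K3 := hi
    have h2 : z ∈ b.K1 := hj
    linarith [h2.1, h1.2.1]
  · have h1 : z ∈ b.K3 := hi
    have h2 : z ∈ b.K2 := hj
    linarith [h2.1, h1.2.2.1]
  · exact hij rfl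

theorem KK_bd {i : Fin 3} {x : Pt} (h : dp δ x ∈ KK b i) : |δ * x.1| ≤ b.R ∧ |δ * x.2| ≤ b.R := by
  rw [F.X.Sdx.dp_pos] at h
  have key : |F.Top.c1 (δ • GFF.pos x)| ≤ b.R ∧ |F.Top.c2 (δ • GFF.pos x)| ≤ b.R := by
    fin_cases i
    · have h1 : δ • GFF.pos x ∈ b.K1 := h
      exact h1.2
    · have h1 : δ • GFF.pos x ∈ b.K2 := h
      exact h1.2.2
    · have h1 : δ • GFF.pos x ∈ b.K3 := h
      exact h1.2.2.2
  rw [F.SD.c1_pos, F.SD.c2_pos] at key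
  exact key

theorem Hyp.union (hh : Hyp b D M ρ Q δ S η) : (⋃ i, Sa b ρ δ S i) = (S : Set Pt) := by
  ext x
  rw [Set.mem_iUnion]
  constructor
  · rintro ⟨i, hi⟩
    exact hi.1
  · intro hx
    rcases hh.arm x hx with h | h | h
    · exact ⟨0, hx, h⟩
    · exact ⟨1, hx, h⟩
    · exact ⟨2, hx, h⟩

theorem Sa_sub (i : Fin 3) : Sa b ρ δ S i ⊆ (S : Set Pt) := fun _ h => h.1

theorem Sa_fin (i : Fin 3) : (Sa b ρ δ S i).Finite := S.finite_toSet.subset (Sa_sub i)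

theorem Hyp.KQ (hh : Hyp b D M ρ Q δ S η) (i : Fin 3) : Metric.closedBall (Q i) ρ ⊆ KK b i := by
  fin_cases i
  · exact hh.ball.1
  · exact hh.ball.2.1
  · exact hh.ball.2.2

/-- Points near `Q i` are in the arm `i`. -/
theorem Hyp.mem_Sa (hh : Hyp b D M ρ Q δ S η) (he : 0 < b.e) (hρ : 0 ≤ ρ) {i : Fin 3} {x : Pt}
    (hx : dp δ x ∈ Metric.closedBall (Q i) ρ) : x ∈ Sa b ρ δ S i := by
  have hxS := hh.full i x hx
  have h1 : x ∈ ⋃ i, Sa b ρ δ S i := by rw [hh.union]; exact hxS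
  obtain ⟨j, hj⟩ := Set.mem_iUnion.1 h1
  by_cases hij : i = j
  · subst hij; exact hj
  · exact (KK_disj he hij (hh.KQ i hx) (hj.2 (Metric.mem_closedBall_self hρ))).elim

theorem Sa_far (he : 0 < b.e) (hδ : 0 < δ) (hρ : 0 ≤ ρ) {r : ℤ} (hr : 9 * (δ * r) ≤ ρ) (i j : Fin 3)
    (hij : i ≠ j) : Far (6 * r) (Sa b ρ δ S i) (Sa b ρ δ S j) := by
  intro x hx y hy
  by_contra hc
  rw [not_or, not_lt, not_lt] at hc
  have h1 := Gp.dp_dist_le hδ (x := y) (p := x) (r := 6 * r)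
    (by rw [← Int.cast_abs, abs_sub_comm]; exact_mod_cast hc.1)
    (by rw [← Int.cast_abs, abs_sub_comm]; exact_mod_cast hc.2)
  have h2 : dp δ y ∈ KK b i := hx.2 (by
    rw [Metric.mem_closedBall]
    refine h1.trans ?_
    linarith)
  exact KK_disj he hij h2 (hy.2 (Metric.mem_closedBall_self hρ))

/-- The functional of the arm `i`. -/
noncomputable def gA (b : PW) (ρ δ : ℝ) (S : Finset Pt) (η : Hg) (L : ℕ) (r : ℤ) (i : Fin 3)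
    (h : Hg) : ℝ :=
  ind (evS (Sa b ρ δ S i) η ∩ Sh L (Sa b ρ δ S i) (2 * r) (3 * r - 1)) h

/-- The set of the arm `i`. -/
noncomputable def AA (b : PW) (ρ δ : ℝ) (S : Finset Pt) (r : ℤ) (i : Fin 3) : Finset Pt :=
  (thk_finite (a := 3 * r) (Sa_fin (b := b) (ρ := ρ) (δ := δ) (S := S) i)).toFinset

theorem coe_AA (b : PW) (ρ δ : ℝ) (S : Finset Pt) (r : ℤ) (i : Fin 3) :
    (AA b ρ δ S r i : Set Pt) = thk (Sa b ρ δ S i) (3 * r) := Set.Finite.coe_toFinset _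

theorem mem_AA {r : ℤ} {i : Fin 3} {x : Pt} :
    x ∈ AA b ρ δ S r i ↔ x ∈ thk (Sa b ρ δ S i) (3 * r) := Set.Finite.mem_toFinset _

/-- Points close to the arm set. -/
theorem near_K (hδ : 0 < δ) {t : ℤ} (ht : 3 / 2 * (δ * t) ≤ ρ) {i : Fin 3} {x : Pt}
    (hx : x ∈ thk (Sa b ρ δ S i) t) : ∃ a ∈ Sa b ρ δ S i, dp δ x ∈ Metric.closedBall (dp δ a) ρ := by
  obtain ⟨a, ha, h1, h2⟩ := hx
  refine ⟨a, ha, ?_⟩
  rw [Metric.mem_closedBall]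
  refine (Gp.dp_dist_le hδ (x := x) (p := a) (r := t) ?_ ?_).trans ht
  · rw [← Int.cast_abs]; exact_mod_cast h1
  · rw [← Int.cast_abs]; exact_mod_cast h2

theorem gA_lc {L : ℕ} {r : ℤ} (hr : 1 ≤ r) (i : Fin 3) :
    Lc (AA b ρ δ S r i : Set Pt) (gA b ρ δ S η L r i) := by
  refine ⟨AA b ρ δ S r i, fun x hx => hx, fun h h' hh => ?_⟩
  have h1 : ∀ x ∈ thk (Sa b ρ δ S i) (3 * r), h x = h' x := fun x hx => hh x (mem_AA.2 hx)
  have key : ∀ a b' : Hg, (∀ x ∈ thk (Sa b ρ δ S i) (3 * r), a x = b' x) →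
      a ∈ evS (Sa b ρ δ S i) η ∩ Sh L (Sa b ρ δ S i) (2 * r) (3 * r - 1) →
      b' ∈ evS (Sa b ρ δ S i) η ∩ Sh L (Sa b ρ δ S i) (2 * r) (3 * r - 1) := by
    rintro a b' hab ⟨h2, h3⟩
    refine ⟨fun x hx => ?_, Sh_congr hr hab h3⟩
    rw [← hab x (sub_thk (by omega) _ hx)]
    exact h2 x hx
  unfold gA ind
  by_cases h2 : h ∈ evS (Sa b ρ δ S i) η ∩ Sh L (Sa b ρ δ S i) (2 * r) (3 * r - 1)
  · rw [if_pos h2, if_pos (key h h' h1 h2)]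
  · rw [if_neg h2, if_neg fun h3 => h2 (key h' h (fun x hx => (h1 x hx).symm) h3)]

/-- One arm. -/
theorem armT {C : ℝ} {L : ℕ} {r : ℤ} (hh : Hyp b D M ρ Q δ S η) (hδ : 0 < δ) (hr : 1 ≤ r)
    (hrρ : 3 / 2 * (δ * (3 * r + 1)) ≤ ρ) (i : Fin 3)
    (hν : 0 < nu (thk (Sa b ρ δ S i) r) (Sa b ρ δ S i) η)
    (hone : ∀ ξ : Hg, Lip ξ → Pr (Cx (thk (Sa b ρ δ S i) (3 * r)) ξ)
      (evS (Sa b ρ δ S i) η ∩ Sh L (Sa b ρ δ S i) (2 * r) (3 * r - 1)) ≤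
        C * nu (thk (Sa b ρ δ S i) r) (Sa b ρ δ S i) η) :
    ArmT δ (KK b i) D (AA b ρ δ S r i) (gA b ρ δ S η L r i)
      (nu (thk (Sa b ρ δ S i) r) (Sa b ρ δ S i) η) C := by
  have hrρ' : 3 / 2 * (δ * ((3 * r + 1 : ℤ) : ℝ)) ≤ ρ := by push_cast; exact hrρ
  have hr2 : 3 / 2 * (δ * ((3 * r : ℤ) : ℝ)) ≤ ρ := by
    push_cast
    nlinarith
  refine ⟨fun x hx => ?_, fun x hx => ?_, gA_lc hr i, fun h => ind_nonneg _ _, hν, fun h hl => ?_⟩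
  · have h1 : x ∈ thk (Sa b ρ δ S i) (3 * r + 1) := by
      unfold nbs at hx
      rcases Finset.mem_union.1 hx with hx | hx
      · exact thk_mono (by omega) _ (mem_AA.1 hx)
      · obtain ⟨y, hy, hyx⟩ := Finset.mem_biUnion.1 hx
        refine thk_adj (mem_AA.1 hy) ?_
        rw [Topo.adj_iff]
        simp only [SDAD.nb, Finset.mem_insert, Finset.mem_singleton, Prod.ext_iff] at hyx
        omega
    obtain ⟨a, ha, h2⟩ := near_K hδ hrρ' h1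
    show δ • GFF.pos x ∈ KK b i
    rw [← F.X.Sdx.dp_pos]
    exact ha.2 h2
  · obtain ⟨a, ha, h2⟩ := near_K hδ hr2 (mem_AA.1 hx)
    rw [← F.X.Sdx.dp_pos]
    exact Set.disjoint_left.1 (hh.off a ha.1) h2
  · rw [Gp.ker_eq_Ex hl, coe_AA]
    have h1 := hone h hl
    rwa [Pr_eq_Ex (F2.Cx_finite (thk_finite (Sa_fin i)) h)] at h1

end Vale.Agent.P153.R2.SDB2
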