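import Vale.Agent.P153.R2.SDB2.Apx

/-!
# P153-R2, block SDB2 (helper859): the approximation, uniformly in the data
-/

namespace Vale.Agent.P153.R2.SDB2

open Set Relation MeasureTheory
open Vale.Agent.P153 Vale.Agent.P153.R2
open Vale.Agent.P153.Topo (Conn)
open Vale.Agent.P153.F (muT)
open Vale.Agent.P153.F.X (S_pos)
open Vale.Agent.P153.F.SD (PW lat)
open Vale.Agent.P153.F.Top (dp)
open Vale.Agent.P153.SDAD (ker nbs Lc ArmT ApD ApP ApproxS)
open Vale.Agent.P153.R2.SDB (S_tail)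
open Vale.Agent.P153.R2.F2 (thk NoCr Cx OneS)
open Vale.Agent.P153.R2.F2A
open scoped Classical

variable {b : PW} {D : Set (ℝ × ℝ)} {M : ℕ} {ρ δ : ℝ} {Q : Fin 3 → ℝ × ℝ} {S : Finset Pt} {η : Hg}
variable {P : Measure (Pt → ℤ)}

theorem gS_ind (S : Finset Pt) (η h : Hg) : SDAR.gS S η h = ind (evS (S : Set Pt) η) h := by
  unfold SDAR.gS ind
  by_cases h1 : ∀ x ∈ S, h x = η x
  · rw [if_pos h1, if_pos (show h ∈ evS (S : Set Pt) η from fun x hx => h1 x hx)]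
  · rw [if_neg h1, if_neg fun h2 => h1 fun x hx => h2 x hx]

/-- The event of the three arms. -/
def E3 (b : PW) (ρ δ : ℝ) (S : Finset Pt) (η : Hg) (L : ℕ) (r : ℤ) : Set Hg :=
  {h | ∀ i, h ∈ evS (Sa b ρ δ S i) η ∩ Sh L (Sa b ρ δ S i) (2 * r) (3 * r - 1)}

theorem prod_gA (L : ℕ) (r : ℤ) (h : Hg) :
    gA b ρ δ S η L r 0 h * gA b ρ δ S η L r 1 h * gA b ρ δ S η L r 2 h =
      (E3 b ρ δ S η L r).indicator (fun _ => (1 : ℝ)) h := by
  have e : h ∈ E3 b ρ δ S η L r ↔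
      (h ∈ evS (Sa b ρ δ S 0) η ∩ Sh L (Sa b ρ δ S 0) (2 * r) (3 * r - 1) ∧
      h ∈ evS (Sa b ρ δ S 1) η ∩ Sh L (Sa b ρ δ S 1) (2 * r) (3 * r - 1)) ∧
      h ∈ evS (Sa b ρ δ S 2) η ∩ Sh L (Sa b ρ δ S 2) (2 * r) (3 * r - 1) := by
    constructor
    · exact fun h1 => ⟨⟨h1 0, h1 1⟩, h1 2⟩
    · rintro ⟨⟨h0, h1⟩, h2⟩ i
      fin_cases i
      · exact h0
      · exact h1
      · exact h2
  unfold gA ind
  by_cases h0 : h ∈ evS (Sa b ρ δ S 0) η ∩ Sh L (Sa b ρ δ S 0) (2 * r) (3 * r - 1)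
  · by_cases h1 : h ∈ evS (Sa b ρ δ S 1) η ∩ Sh L (Sa b ρ δ S 1) (2 * r) (3 * r - 1)
    · by_cases h2 : h ∈ evS (Sa b ρ δ S 2) η ∩ Sh L (Sa b ρ δ S 2) (2 * r) (3 * r - 1)
      · rw [if_pos h0, if_pos h1, if_pos h2, Set.indicator_of_mem (e.2 ⟨⟨h0, h1⟩, h2⟩)]
        norm_num
      · rw [if_neg h2, mul_zero, Set.indicator_of_notMem fun h3 => h2 (e.1 h3).2]
    · rw [if_neg h1, mul_zero, zero_mul, Set.indicator_of_notMem fun h3 => h1 (e.1 h3).1.2]
  · rw [if_neg h0, zero_mul, zero_mul, Set.indicator_of_notMem fun h3 => h0 (e.1 h3).1.1]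

theorem E3_meas {L : ℕ} {r : ℤ} (hr : 1 ≤ r) : MeasurableSet (E3 b ρ δ S η L r) := by
  have e : E3 b ρ δ S η L r = ⋂ i, gA b ρ δ S η L r i ⁻¹' {1} := by
    ext h
    unfold E3
    rw [Set.mem_ofPred_eq, Set.mem_iInter]
    refine forall_congr' fun i => ?_
    rw [Set.mem_preimage, Set.mem_singleton_iff]
    unfold gA ind
    constructor
    · intro h1; rw [if_pos h1]
    · intro h1
      by_contra h2
      rw [if_neg h2] at h1
      norm_num at h1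
  rw [e]
  exact MeasurableSet.iInter fun i => (gA_lc hr i).measurable (measurableSet_singleton 1)

/-- **The approximation.** -/
theorem approx (hP : GFF.Plane P) (hpos : S_pos P) {R s₀ : ℤ} {c : ℝ} (hR : 1 ≤ R) (hs₀ : 1 ≤ s₀)
    (hc : 0 < c) (hone : OneS R s₀ c) (ht : S_tail P) (he : 0 < b.e) (D : Set (ℝ × ℝ)) (M : ℕ)
    (hρ : 0 < ρ) (Q : Fin 3 → ℝ × ℝ) {ε : ℝ} (hε : 0 < ε) :
    ∃ C c0 ds : ℝ, 0 < C ∧ 0 < c0 ∧ 0 < ds ∧ ∀ δ : ℝ, 0 < δ → δ ≤ ds → ∀ (S : Finset Pt) (η : Hg),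
      Hyp b D M ρ Q δ S η → ApproxS P δ b D (SDAR.gS S η) C c0 ε := by
  -- the constants
  obtain ⟨K₀, hK₀⟩ := exists_nat_ge (max 1 (40 * b.R / ρ))
  have hK1 : (1 : ℝ) ≤ K₀ := (le_max_left _ _).trans hK₀
  have hK1' : 1 ≤ K₀ := by exact_mod_cast hK1
  have hK2 : 40 * b.R / ρ ≤ K₀ := (le_max_right _ _).trans hK₀
  obtain ⟨L, st, hML, hst, htail⟩ := ht (M + 1) K₀ ε hK1' hε
  obtain ⟨k₁, hk₁, one1⟩ := onearm_k hR hs₀ hc hone L
  obtain ⟨k₂, hk₂, low1⟩ := lower_arms hP hpos hR hs₀ hc hone L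
  set k : ℤ := max k₁ k₂ with hk
  have hk4 : 4 ≤ k := hk₂.trans (le_max_right _ _)
  set ρ' : ℤ := 2 * k * (K₀ + 3) with hρ'
  obtain ⟨C, hC, one2⟩ := one1 ρ'
  obtain ⟨c', s₁, hc', hs₁, low2⟩ := low1 ρ'
  -- the minimal scale
  set Rm : ℤ := max st (max (k * s₁) (M + 2)) with hRm
  have hRm0 : 0 ≤ Rm := by
    have : (M : ℤ) + 2 ≤ Rm := (le_max_right _ _).trans (le_max_right _ _)
    have := Int.natCast_nonneg M
    omega
  have hRmR : (0 : ℝ) ≤ Rm := by exact_mod_cast hRm0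
  refine ⟨C, c', min (ρ / (10 * (Rm + 1))) (ρ / 20), hC, hc', by positivity,
    fun δ hδ hds S η hh => ?_⟩
  have hd1 : δ ≤ ρ / (10 * (Rm + 1)) := hds.trans (min_le_left _ _)
  have hd2 : δ ≤ ρ / 20 := hds.trans (min_le_right _ _)
  set r : ℤ := ⌊ρ / (10 * δ)⌋ with hr
  have hr1 : (r : ℝ) ≤ ρ / (10 * δ) := Int.floor_le _
  have hr2 : ρ / (10 * δ) < r + 1 := Int.lt_floor_add_one _
  have hδr : δ * r ≤ ρ / 10 := by
    have := mul_le_mul_of_nonneg_left hr1 hδ.le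
    have e : δ * (ρ / (10 * δ)) = ρ / 10 := by field_simp
    linarith
  have hδr2 : ρ / 20 ≤ δ * r := by
    have := mul_lt_mul_of_pos_left hr2 hδ
    have e : δ * (ρ / (10 * δ)) = ρ / 10 := by field_simp
    linarith
  have hrRm : Rm ≤ r := by
    rw [hr]
    refine Int.le_floor.2 ?_
    rw [le_div_iff₀ (by positivity)]
    rw [le_div_iff₀ (by positivity)] at hd1
    nlinarith
  have hrst : st ≤ r := (le_max_left _ _).trans hrRm
  have hrk : k * s₁ ≤ r := ((le_max_left _ _).trans (le_max_right _ _)).trans hrRm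
  have hrM : (M : ℤ) + 2 ≤ r := ((le_max_right _ _).trans (le_max_right _ _)).trans hrRm
  have hM0 := Int.natCast_nonneg M
  have hr0 : 1 ≤ r := by omega
  -- the small scale
  set s : ℤ := r / k with hs
  have hs1 : s₁ ≤ s := by
    rw [hs, Int.le_ediv_iff_mul_le (by omega), mul_comm]
    exact hrk
  have hsp : 1 ≤ s := hs₀.trans (hs₁.trans hs1)
  have hks : k * s ≤ r := Int.mul_ediv_self_le (by omega)
  have hks2 : r < k * s + k := by
    have h1 := Int.mul_ediv_add_emod r k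
    have h2 := Int.emod_lt_of_pos r (show 0 < k by omega)
    rw [← hs] at h1
    omega
  have hkk : k ≤ k * s := by nlinarith
  have hKr : (K₀ + 3) * r ≤ ρ' * s := by
    have h1 : r ≤ 2 * (k * s) := by omega
    have h2 : ((K₀ : ℤ) + 3) * r ≤ (K₀ + 3) * (2 * (k * s)) :=
      mul_le_mul_of_nonneg_left h1 (by positivity)
    refine h2.trans (le_of_eq ?_)
    rw [hρ']; ring
  have hKr1 : (K₀ : ℤ) * r ≤ ρ' * s := by nlinarith
  have hKr3 : 3 * r ≤ ρ' * s := by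
    have : 0 ≤ (K₀ : ℤ) * r := by positivity
    nlinarith
  -- the region
  have hR1 : ∀ x : Pt, (∃ i, dp δ x ∈ KK b i) → |(x.1 : ℝ)| ≤ K₀ * r / 2 ∧
      |(x.2 : ℝ)| ≤ K₀ * r / 2 := by
    rintro x ⟨i, hi⟩
    obtain ⟨h1, h2⟩ := KK_bd hi
    rw [abs_mul, abs_of_pos hδ] at h1 h2
    have h3 : b.R ≤ δ * (K₀ * r / 2) := by
      rw [div_le_iff₀ hρ] at hK2
      have h4 : K₀ * (ρ / 20) ≤ K₀ * (δ * r) := mul_le_mul_of_nonneg_left hδr2 (by positivity)
      nlinarith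
    exact ⟨le_of_mul_le_mul_left (h1.trans h3) hδ, le_of_mul_le_mul_left (h2.trans h3) hδ⟩
  have hSK : ∀ x ∈ S, ∃ i, dp δ x ∈ KK b i := by
    intro x hx
    have h1 : x ∈ ⋃ i, Sa b ρ δ S i := by rw [hh.union]; exact hx
    obtain ⟨i, hi⟩ := Set.mem_iUnion.1 h1
    exact ⟨i, hi.2 (Metric.mem_closedBall_self hρ.le)⟩
  have hS0 : ∀ i, Sa b ρ δ S i ⊆ F.X.bx 0 (ρ' * s) := by
    intro i x hx
    obtain ⟨h1, h2⟩ := hR1 x (hSK x hx.1)
    have h3 : (K₀ : ℝ) * r / 2 ≤ ((K₀ * r : ℤ) : ℝ) := by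
      push_cast
      have : (0 : ℝ) ≤ K₀ * r := by positivity
      linarith
    have h4 : |x.1| ≤ K₀ * r := by exact_mod_cast (h1.trans h3)
    have h5 : |x.2| ≤ K₀ * r := by exact_mod_cast (h2.trans h3)
    show |x.1 - 0| ≤ ρ' * s ∧ |x.2 - 0| ≤ ρ' * s
    rw [sub_zero, sub_zero]
    exact ⟨h4.trans hKr1, h5.trans hKr1⟩
  -- a point near `Q i`
  have hnear : ∀ i, ∃ p : Pt, dist (dp δ p) (Q i) ≤ δ := fun i => Gp.exists_near hδ (Q i)
  have hdρ : δ ≤ ρ := by linarith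
  have hmem : ∀ i, (Sa b ρ δ S i).Nonempty := by
    intro i
    obtain ⟨p, hp⟩ := hnear i
    exact ⟨p, hh.mem_Sa he hρ.le (Metric.mem_closedBall.2 (hp.trans hdρ))⟩
  have hν : ∀ i, 0 < nu (thk (Sa b ρ δ S i) r) (Sa b ρ δ S i) η := fun i =>
    nu_pos (Sa_fin i) (hmem i) hh.bd.1.1 hh.bd.1.2 (M := M) (fun x => hh.bd.2 x) (by omega)
  have hηL : ∀ x, |η x| + 2 ≤ 2 * L + 1 := fun x => by
    have h1 := hh.bd.2 x
    have h2 : ((M + 1 : ℕ) : ℤ) ≤ L := by exact_mod_cast hML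
    push_cast at h2
    omega
  -- one arm
  have arm : ∀ i, ArmT δ (KK b i) D (AA b ρ δ S r i) (gA b ρ δ S η L r i)
      (nu (thk (Sa b ρ δ S i) r) (Sa b ρ δ S i) η) C := by
    intro i
    refine armT hh hδ hr0 ?_ i (hν i) fun ξ hξ => ?_
    · have : 3 / 2 * (δ * (3 * r + 1)) = 9 / 2 * (δ * r) + 3 / 2 * δ := by ring
      rw [this]
      linarith
    · refine one2 s (hs₁.trans hs1) 0 _ _ η ξ r (hS0 i) (fun x _ => hηL x) ?_ hKr3
        (thk_finite (Sa_fin i)) Subset.rfl ⟨ξ, hξ.1, fun x => ?_, fun x _ y hxy => hξ.2 x y hxy⟩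
      · have : k₁ * s ≤ k * s := mul_le_mul_of_nonneg_right (le_max_left _ _) (by omega)
        omega
      · unfold exa
        split_ifs
        · trivial
        · exact rfl
  -- lower bound
  have hlow := low2 s hs1 (Fin 3) (Sa b ρ δ S) η r hS0 ⟨0, hmem 0⟩ (fun i x _ => by
    have := hηL x; omega) (Sa_far he hδ hρ.le (by linarith)) (by
      have : k₂ * s ≤ k * s := mul_le_mul_of_nonneg_right (le_max_right _ _) (by omega)
      omega) hKr3
  rw [Fin.prod_univ_three] at hlow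
  have hE := E3_meas (b := b) (ρ := ρ) (δ := δ) (S := S) (η := η) (L := L) hr0
  have hW : ∫ h, gA b ρ δ S η L r 0 h * gA b ρ δ S η L r 1 h * gA b ρ δ S η L r 2 h ∂(muT P) =
      (muT P).real (E3 b ρ δ S η L r) := by
    simp only [prod_gA]
    rw [integral_indicator hE, setIntegral_const, smul_eq_mul, mul_one]
  have hsub : E3 b ρ δ S η L r ⊆ evS (S : Set Pt) η := by
    intro h h1 x hx
    have h2 : x ∈ ⋃ i, Sa b ρ δ S i := by rw [hh.union]; exact hx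
    obtain ⟨i, hi⟩ := Set.mem_iUnion.1 h2
    exact (h1 i).1 x hi
  have hSne : (S : Set Pt).Nonempty := (hmem 0).mono (Sa_sub 0)
  have hfin : muT P (evS (S : Set Pt) η) ≠ ⊤ := evS_fin hP S.finite_toSet hSne η
  have hmS := evS_meas S.finite_toSet η
  have iS : Integrable ((evS (S : Set Pt) η).indicator fun _ => (1 : ℝ)) (muT P) := by
    rw [integrable_indicator_iff hmS]
    exact integrableOn_const hfin
  have iE : Integrable ((E3 b ρ δ S η L r).indicator fun _ => (1 : ℝ)) (muT P) := by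
    rw [integrable_indicator_iff hE]
    exact integrableOn_const (ne_top_of_le_ne_top hfin (measure_mono hsub))
  have hG : ∀ h, SDAR.gS S η h = (evS (S : Set Pt) η).indicator (fun _ => (1 : ℝ)) h := fun h => by
    rw [gS_ind]; rfl
  refine ⟨⟨AA b ρ δ S r 0, AA b ρ δ S r 1, AA b ρ δ S r 2, gA b ρ δ S η L r 0,
    gA b ρ δ S η L r 1, gA b ρ δ S η L r 2, nu (thk (Sa b ρ δ S 0) r) (Sa b ρ δ S 0) η,
    nu (thk (Sa b ρ δ S 1) r) (Sa b ρ δ S 1) η, nu (thk (Sa b ρ δ S 2) r) (Sa b ρ δ S 2) η⟩,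
    arm 0, arm 1, arm 2, fun h _ => ?_, ?_, ?_⟩
  · show gA b ρ δ S η L r 0 h * gA b ρ δ S η L r 1 h * gA b ρ δ S η L r 2 h ≤ SDAR.gS S η h
    rw [prod_gA, hG]
    exact Set.indicator_le_indicator_of_subset hsub (fun _ => zero_le_one) h
  · show _ ≤ ∫ h, gA b ρ δ S η L r 0 h * gA b ρ δ S η L r 1 h * gA b ρ δ S η L r 2 h ∂(muT P)
    rw [hW]
    exact hlow
  · show ∫ h, (SDAR.gS S η h -
      gA b ρ δ S η L r 0 h * gA b ρ δ S η L r 1 h * gA b ρ δ S η L r 2 h) ∂(muT P) ≤ _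
    simp only [prod_gA, hG]
    rw [integral_sub iS iE, integral_indicator hmS, integral_indicator hE, setIntegral_const,
      setIntegral_const, smul_eq_mul, mul_one, smul_eq_mul, mul_one]
    obtain ⟨p, hp⟩ := hnear 0
    have hpK : ∃ i, dp δ p ∈ KK b i := ⟨0, hh.KQ 0 (Metric.mem_closedBall.2 (hp.trans hdρ))⟩
    obtain ⟨hp1, hp2⟩ := hR1 p hpK
    have h1 := htail r hrst p (S : Set Pt) η (fun x hx => ?_) (fun x hx => ?_) fun x _ => by
      have := hh.bd.2 x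
      push_cast
      omega
    · have h2 : evS (S : Set Pt) η \ E3 b ρ δ S η L r ⊆
          evS (S : Set Pt) η \ Sh L (S : Set Pt) (2 * r) (3 * r - 1) := by
        rintro h ⟨h3, h4⟩
        refine ⟨h3, fun h5 => h4 fun i => ⟨fun x hx => h3 x hx.1, ?_⟩⟩
        rw [← hh.union] at h5
        exact Sh_of_union _ L hr0 (Sa_far he hδ hρ.le (by linarith)) i h5
      have h3 := measureReal_mono (μ := muT P) h2
        (ne_top_of_le_ne_top hfin (measure_mono Set.sdiff_subset))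
      have h4 : (muT P).real (evS (S : Set Pt) η \ E3 b ρ δ S η L r) =
          (muT P).real (evS (S : Set Pt) η) - (muT P).real (E3 b ρ δ S η L r) :=
        measureReal_sdiff hsub hE hfin
      linarith
    · refine hh.full 0 x ?_
      rw [Metric.mem_closedBall]
      obtain ⟨h2, h3⟩ := hx
      have h4 := Gp.dp_dist_le hδ (x := x) (p := p) (r := r)
        (by rw [← Int.cast_abs]; exact_mod_cast h2) (by rw [← Int.cast_abs]; exact_mod_cast h3)
      have h5 := dist_triangle (dp δ x) (dp δ p) (Q 0)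
      linarith
    · obtain ⟨h2, h3⟩ := hR1 x (hSK x hx)
      have h4 : |((x.1 - p.1 : ℤ) : ℝ)| ≤ ((K₀ * r : ℤ) : ℝ) := by
        push_cast
        have := abs_sub (x.1 : ℝ) (p.1 : ℝ)
        linarith
      have h5 : |((x.2 - p.2 : ℤ) : ℝ)| ≤ ((K₀ * r : ℤ) : ℝ) := by
        push_cast
        have := abs_sub (x.2 : ℝ) (p.2 : ℝ)
        linarith
      exact ⟨by exact_mod_cast h4, by exact_mod_cast h5⟩

end Vale.Agent.P153.R2.SDB2
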