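import Vale.Agent.P153.R2.F2A.LowerT

/-!
# P153-R2, block SDB2 (helper859): locality of the shields, positivity of the free masses

* `Sh_congr`: the shield `Sh L S (2 r) (3 r - 1)` depends on the heights on `thk S (3 r)`.
* `nu_pos`: `nu (thk S r) S η > 0` for bounded Lipschitz data.
-/

namespace Vale.Agent.P153.R2.SDB2

open Set Relation
open Vale.Agent.P153 Vale.Agent.P153.R2
open Vale.Agent.P153.Topo (Conn)
open Vale.Agent.P153.R2.F2 (thk NoCr)
open Vale.Agent.P153.R2.F2A (evS Sh nu thk_mono thk_adj sub_thk thk_finite Dat_frd frd_in frd_bd frd_off)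
open scoped Classical

variable {S : Set Pt} {η : Hg}

/-- The shield depends on the heights on `thk S (3 r)`. -/
theorem Sh_congr {L : ℕ} {r : ℤ} (hr : 1 ≤ r) {h h' : Hg} (hh : ∀ x ∈ thk S (3 * r), h x = h' x)
    (hs : h ∈ Sh L S (2 * r) (3 * r - 1)) : h' ∈ Sh L S (2 * r) (3 * r - 1) := by
  intro x hx y hy hxy
  have key : ∀ v, Conn {z | 2 * (L : ℤ) + 3 ≤ |h' z|} x v →
      (Conn {z | 2 * (L : ℤ) + 3 ≤ |h z|} x v ∧ v ∈ thk S (3 * r - 1)) ∨
        ∃ w, w ∉ thk S (3 * r - 1) ∧ Conn {z | 2 * (L : ℤ) + 3 ≤ |h z|} x w := by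
    intro v hv
    refine Conn.ind (fun v => (Conn {z | 2 * (L : ℤ) + 3 ≤ |h z|} x v ∧ v ∈ thk S (3 * r - 1)) ∨
        ∃ w, w ∉ thk S (3 * r - 1) ∧ Conn {z | 2 * (L : ℤ) + 3 ≤ |h z|} x w)
      (Or.inl ⟨Conn.refl ?_, thk_mono (by omega) S hx⟩) (fun u w hu huw hw ih => ?_) hv
    · show 2 * (L : ℤ) + 3 ≤ |h x|
      rw [hh x (thk_mono (by omega) S hx)]
      exact hxy.left_mem
    · rcases ih with ⟨h1, h2⟩ | h1
      · have h3 : w ∈ thk S (3 * r) := by
          have := thk_adj h2 huw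
          rwa [show 3 * r - 1 + 1 = 3 * r by ring] at this
        have h4 : Conn {z | 2 * (L : ℤ) + 3 ≤ |h z|} x w := by
          refine h1.tail huw ?_
          show 2 * (L : ℤ) + 3 ≤ |h w|
          rw [hh w h3]
          exact hw
        by_cases h5 : w ∈ thk S (3 * r - 1)
        · exact Or.inl ⟨h4, h5⟩
        · exact Or.inr ⟨w, h5, h4⟩
      · exact Or.inr h1
  rcases key y hxy with ⟨-, h2⟩ | ⟨w, hw, hw2⟩
  · exact hy h2
  · exact hs x hx w hw hw2

/-! ### Positivity -/

/-- The sup-distance of two points. -/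
def ds (x y : Pt) : ℕ := max (x.1 - y.1).natAbs (x.2 - y.2).natAbs

theorem ds_adj {x y z : Pt} (h : Adj x y) : ds y z ≤ ds x z + 1 := by
  rw [Topo.adj_iff] at h
  unfold ds
  omega

/-- The distance to a finite nonempty set. -/
noncomputable def dS (T : Finset Pt) (hT : T.Nonempty) (x : Pt) : ℕ := T.inf' hT (ds x)

theorem dS_adj {T : Finset Pt} (hT : T.Nonempty) {x y : Pt} (h : Adj x y) :
    dS T hT y ≤ dS T hT x + 1 := by
  obtain ⟨z, hz, h1⟩ := T.exists_mem_eq_inf' hT (ds x)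
  unfold dS
  rw [h1]
  exact (T.inf'_le _ hz).trans (ds_adj h)

theorem dS_mem {T : Finset Pt} (hT : T.Nonempty) {x : Pt} (h : x ∈ T) : dS T hT x = 0 := by
  have h1 : dS T hT x ≤ ds x x := T.inf'_le _ h
  have h2 : ds x x = 0 := by unfold ds; simp
  omega

theorem dS_le {T : Finset Pt} (hT : T.Nonempty) {x : Pt} {r : ℤ} (h : (dS T hT x : ℤ) ≤ r) :
    x ∈ thk (T : Set Pt) r := by
  obtain ⟨z, hz, h1⟩ := T.exists_mem_eq_inf' hT (ds x)
  unfold dS at h
  rw [h1] at h
  refine ⟨z, hz, ?_⟩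
  unfold ds at h
  rw [abs_le, abs_le]
  omega

/-- **Positivity of the free masses.** -/
theorem nu_pos (hS : S.Finite) (hne : S.Nonempty) (ho : ∀ x, Odd (η x))
    (hl : ∀ x y, Adj x y → |η x - η y| ≤ 2) {M : ℕ} (hb : ∀ x, |η x| ≤ 2 * M + 1) {r : ℤ}
    (hr : M + 1 ≤ r) : 0 < nu (thk S r) S η := by
  have hr0 : 0 ≤ r := by have := Int.natCast_nonneg M; omega
  set T : Finset Pt := hS.toFinset with hTd
  have hTS : (T : Set Pt) = S := hS.coe_toFinset
  have hT : T.Nonempty := by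
    obtain ⟨x, hx⟩ := hne
    exact ⟨x, hS.mem_toFinset.2 hx⟩
  have hWf : (thk S r).Finite := thk_finite hS
  set B : Pt → ℤ := fun x => max 1 (2 * (r - dS T hT x) + 1) with hB
  have hBodd : ∀ x, Odd (B x) := fun x => by
    show Odd (max 1 (2 * (r - dS T hT x) + 1))
    rcases max_cases (1 : ℤ) (2 * (r - dS T hT x) + 1) with ⟨e, -⟩ | ⟨e, -⟩ <;> rw [e]
    · exact odd_one
    · exact ⟨r - dS T hT x, rfl⟩
  have hB1 : ∀ x, 1 ≤ B x := fun x => le_max_left _ _
  have hBl : ∀ x y, Adj x y → |B x - B y| ≤ 2 := by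
    intro x y hxy
    have h1 := dS_adj hT hxy
    have h2 := dS_adj hT (Topo.adj_symm hxy)
    show |max 1 (2 * (r - dS T hT x) + 1) - max 1 (2 * (r - dS T hT y) + 1)| ≤ 2
    rw [abs_le]
    omega
  set g : Hg := fun x => if x ∈ nb (thk S r) then max (-B x) (min (B x) (η x)) else 1 with hg
  have hB2 : ∀ x, x ∉ thk S r → B x = 1 := by
    intro x hx
    have h1 : r < dS T hT x := by
      by_contra hc
      refine hx ?_
      have := dS_le hT (not_lt.1 hc)
      rwa [hTS] at this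
    show max 1 (2 * (r - dS T hT x) + 1) = 1
    omega
  have hval : ∀ x, max (-B x) (min (B x) (η x)) = -B x ∨ max (-B x) (min (B x) (η x)) = B x ∨
      max (-B x) (min (B x) (η x)) = η x := by
    intro x; omega
  have hgodd : ∀ x, Odd (g x) := by
    intro x
    show Odd (if x ∈ nb (thk S r) then max (-B x) (min (B x) (η x)) else 1)
    split_ifs
    · rcases hval x with e | e | e <;> rw [e]
      · exact (hBodd x).neg
      · exact hBodd x
      · exact ho x
    · exact odd_one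
  have hgm : g ∈ Cfg (thk S r) (frd (thk S r) 0) := by
    refine ⟨hgodd, fun x => ?_, fun x hx y hxy => ?_⟩
    · by_cases h1 : x ∈ thk S r
      · rw [frd_in h1]; trivial
      · by_cases h2 : x ∈ ebd (thk S r)
        · rw [frd_bd h2]
          have h3 : g x = max (-B x) (min (B x) (η x)) := if_pos (Or.inr h2)
          rw [h3, hB2 x h1]
          obtain ⟨k, hk⟩ := ho x
          simp only [Set.mem_insert_iff, Set.mem_singleton_iff]
          omega
        · rw [frd_off h1 h2]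
          have h3 : g x = 1 := if_neg fun h => h.elim h1 h2
          rw [h3]; rfl
    · have h1 : g x = max (-B x) (min (B x) (η x)) := if_pos (Or.inl hx)
      have h2 : g y = max (-B y) (min (B y) (η y)) := if_pos (F2A.mem_nb_adj hx hxy)
      rw [h1, h2]
      have h3 := abs_le.1 (hBl x y hxy)
      have h4 := abs_le.1 (hl x y hxy)
      rw [abs_le]
      omega
  have hgS : g ∈ evS S η := by
    intro x hx
    have h1 : g x = max (-B x) (min (B x) (η x)) := if_pos (Or.inl (sub_thk hr0 S hx))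
    have h2 : dS T hT x = 0 := dS_mem hT (hS.mem_toFinset.2 hx)
    have h3 : B x = 2 * r + 1 := by
      show max 1 (2 * (r - dS T hT x) + 1) = 2 * r + 1
      rw [h2]
      push_cast
      omega
    have h4 := abs_le.1 (hb x)
    rw [h1, h3]
    omega
  have fin := Cfg_finite (Dat_frd hWf 0)
  unfold nu Pr
  refine div_pos ?_ ?_
  · exact_mod_cast (Set.ncard_pos (fin.inter_of_left _)).2 ⟨g, hgm, hgS⟩
  · exact_mod_cast (Set.ncard_pos fin).2 ⟨g, hgm⟩

end Vale.Agent.P153.R2.SDB2
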