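import Vale.Agent.P153.R2.SDB2.Apx2
import Vale.Agent.P153.R2.F2A.Lc
import Vale.Agent.P153.R2.F2.One

/-!
# P153-R2, block SDB2 (helper859): the Schwinger-Dyson equations for the open laws

`s_sdb : S_tail P → SDAR.S_sdb κ P`.
-/

namespace Vale.Agent.P153.R2.SDB2

open Set Relation MeasureTheory Filter Topology
open Vale.Agent.P145.PT (Sm TestOn lap)
open Vale.Agent.P153 Vale.Agent.P153.R2
open Vale.Agent.P153.GFF (var2)
open Vale.Agent.P153.F (muT)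
open Vale.Agent.P153.F.X (S_pos S_mom S_emom S_rsw s_loc s_conf s_ext s_int s_emom)
open Vale.Agent.P153.F.SD (PW lat CLT)
open Vale.Agent.P153.F.Top (dp c1 c2)
open Vale.Agent.P153.R2.SDB (S_tail)
open Vale.Agent.P153.R2.F2 (OneS)
open scoped Classical

theorem s_sdb_of {P : Measure (Pt → ℤ)} (hP : GFF.Plane P) {A0 : ℝ} (hA0 : 0 ≤ A0)
    (hA : ∀ x : ℤ × ℤ, var2 P x ≤ A0 * (1 + |(x.1 : ℝ)| + |(x.2 : ℝ)|)) {κ : ℝ}
    (hclt : CLT P κ) (hMom : S_mom P) (hE : S_emom P) (hRsw : S_rsw P) (hpos : S_pos P)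
    {R s₀ : ℤ} {c : ℝ} (hR : 1 ≤ R) (hs₀ : 1 ≤ s₀) (hc : 0 < c) (hone : OneS R s₀ c)
    (ht : S_tail P) : SDAR.S_sdb κ P := by
  intro b hb he D hD hcell M ρ hρ Q ψ f0 g hψ hf0 hg hgK j ε hε
  -- the larger arms
  have hp1 : F.X.Sdx.pc b.x0 ((b.y0 + b.s0 - b.x0) / 2) ∈ D := by
    refine hcell ⟨?_, ?_, ?_⟩
    · rw [F.X.Sdx.c1_pc]; linarith
    · rw [F.X.Sdx.c2_pc]; linarith
    · rw [F.X.Sdx.c1_pc, F.X.Sdx.c2_pc]; linarith
  have hp3 : F.X.Sdx.pc ((b.x0 + b.s0 - b.y0) / 2) b.y0 ∈ D := by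
    refine hcell ⟨?_, ?_, ?_⟩
    · rw [F.X.Sdx.c1_pc]; linarith
    · rw [F.X.Sdx.c2_pc]; linarith
    · rw [F.X.Sdx.c1_pc, F.X.Sdx.c2_pc]; linarith
  obtain ⟨e1, R1, he1, hR1, r1⟩ := F.X.Sdx.exists_rho1 hD (b := b.y0) (c := b.s0) hp1
  obtain ⟨e3, R3, he3, hR3, r3⟩ := F.X.Sdx.exists_rho3 hD hb hp3
  set e' : ℝ := min b.e (min e1 e3) with he'
  set R' : ℝ := max b.R (max R1 R3) with hR'
  set b' : PW := ⟨b.x0, b.y0, b.s0, e', R'⟩ with hb'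
  have he'0 : 0 < e' := lt_min he (lt_min he1 he3)
  have hee : e' ≤ b.e := min_le_left _ _
  have hRR : b.R ≤ R' := le_max_left _ _
  have k1 : b.K1 ⊆ b'.K1 := by
    rintro z ⟨h1, h2, h3⟩
    exact ⟨h1.trans (by show b.x0 - b.e ≤ b.x0 - e'; linarith), h2.trans hRR, h3.trans hRR⟩
  have k2 : b.K2 ⊆ b'.K2 := by
    rintro z ⟨h1, h2, h3, h4⟩
    exact ⟨le_trans (by show b.s0 + e' ≤ b.s0 + b.e; linarith) h1, h2, h3.trans hRR, h4.trans hRR⟩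
  have k3 : b.K3 ⊆ b'.K3 := by
    rintro z ⟨h1, h2, h3, h4, h5⟩
    exact ⟨h1.trans (by show b.y0 - b.e ≤ b.y0 - e'; linarith), h2, h3, h4.trans hRR,
      h5.trans hRR⟩
  have hbox : b'.box ⊆ D := by
    rintro z ⟨h1, h2, h3⟩
    refine hcell ⟨?_, ?_, ?_⟩
    · show b.x0 - 0 ≤ c1 z
      have : b.x0 < c1 z := h1
      linarith
    · show b.y0 - 0 ≤ c2 z
      have : b.y0 < c2 z := h2
      linarith
    · show c1 z + c2 z ≤ b.s0 + 0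
      have : c1 z + c2 z < b.s0 := h3
      linarith
  -- the constants
  have hap := fun (ε : ℝ) (hε : 0 < ε) => approx (P := P) (b := b') (ρ := ρ) hP hpos hR hs₀ hc hone
    ht he'0 D M hρ Q hε
  choose! C c0 ds hC hc0 hds hap' using hap
  obtain ⟨dm, CM, hdm, hmom⟩ := Gp.momT_open hP hMom hE hRsw s_loc s_conf hρ (Q 0) D M
  obtain ⟨δ₀, hδ₀, hmain⟩ := SDAD.adaptUJ (b := b') (D := D) (j := j) (η := ε) hP hA0 hA hclt hb
    he'0 hbox hC hc0 hds hdm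
    (r1 e' R' ((min_le_right _ _).trans (min_le_left _ _))
      ((le_max_left _ _).trans (le_max_right _ _)))
    (r3 e' R' ((min_le_right _ _).trans (min_le_right _ _))
      ((le_max_right _ _).trans (le_max_right _ _)))
    (ψ := ψ) (f0 := f0) (g := g) hψ hf0 hg
    (fun x hx => (hgK x hx).imp (fun h => k1 h) (Or.imp (fun h => k2 h) fun h => k3 h)) hε
  refine ⟨min δ₀ ρ, lt_min hδ₀ hρ, fun δ hδ hδ1 S η hη hS1 hS2 hQ hS3 => ?_⟩
  have hH : Hyp b' D M ρ Q δ S η := ⟨hη,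
    fun x hx => (hS1 x hx).imp (fun h => h.trans k1) (Or.imp (fun h => h.trans k2)
      fun h => h.trans k3), hS2, ⟨hQ.1.trans k1, hQ.2.1.trans k2, hQ.2.2.trans k3⟩, hS3⟩
  have hSne : S.Nonempty := by
    obtain ⟨p, hp⟩ := Gp.exists_near hδ (Q 0)
    exact ⟨p, hS3 0 p (Metric.mem_closedBall.2 (hp.trans (hδ1.le.trans (min_le_right _ _))))⟩
  have hint := Gp.gS_integrable hP hSne η (G := fun _ => 1) ⟨∅, fun _ _ _ => rfl⟩
  simp only [one_mul] at hint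
  exact hmain δ hδ (hδ1.trans_le (min_le_left _ _)) (SDAR.gS S η) (Gp.gS_meas S η)
    (Gp.gS_nonneg S η) hint (fun ε' hε' hd => hap' ε' hε' δ hδ hd S η hH)
    (hmom δ hδ S η hη (fun x hx hxD => Set.disjoint_left.1 (hS2 x hx)
      (Metric.mem_closedBall_self hρ.le) hxD) (hS3 0))

/-- **The Schwinger-Dyson equations for the open laws**, from the tail estimate. -/
theorem s_sdb {Q : Measure A.Om} {κ : ℝ} (hQ : A.IsQ Q) (hP : GFF.Plane (Q.map A.rc))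
    (hS : GFF.SpecOut (Q.map A.rc) κ) (hC : GFF.RowCLT (Q.map A.rc) κ) (hκ : 0 < κ)
    (ht : S_tail (Q.map A.rc)) : SDAR.S_sdb (4 * κ / √3) (Q.map A.rc) := by
  have lvl := F.lvl_of hQ hP hS hC hκ
  obtain ⟨hclt, A0, hA0, hA⟩ := F.SD.clt_of hP hS hC
  obtain ⟨R, s₀, hR, hs₀, hone⟩ := F2.s_one (F2A.s_lc hQ hP hS hC hκ)
  exact s_sdb_of hP hA0 hA hclt lvl.mom (s_emom lvl.ext s_conf s_loc) lvl.rsw lvl.pos hR hs₀
    (by norm_num) hone ht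

end Vale.Agent.P153.R2.SDB2
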